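import Mathlib

/-!
Paths of a translation-invariant step relation on `Q × ℤ`, confined to an interval, and the pumping of
traversals.
-/

namespace Vale.Agent.Lib.P343

open Relation

variable {Q : Type}

/-- One step of the translation invariant relation `T` whose source position lies in `[lo,hi]`. -/
def IStep (T : Q → Q → ℤ → Prop) (lo hi : ℤ) (c c' : Q × ℤ) : Prop :=
  lo ≤ c.2 ∧ c.2 ≤ hi ∧ T c.1 c'.1 (c'.2 - c.2)

/-- Paths all of whose source positions lie in `[lo,hi]`. -/
def Inner (T : Q → Q → ℤ → Prop) (lo hi : ℤ) (c c' : Q × ℤ) : Prop :=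
  ReflTransGen (IStep T lo hi) c c'

theorem Inner.refl' (T : Q → Q → ℤ → Prop) (lo hi : ℤ) (c : Q × ℤ) : Inner T lo hi c c :=
  ReflTransGen.refl

theorem Inner.trans' {T : Q → Q → ℤ → Prop} {lo hi : ℤ} {a b c : Q × ℤ}
    (h1 : Inner T lo hi a b) (h2 : Inner T lo hi b c) : Inner T lo hi a c :=
  ReflTransGen.trans h1 h2

theorem Inner.mono {T : Q → Q → ℤ → Prop} {lo hi lo' hi' : ℤ} {a b : Q × ℤ}
    (h : Inner T lo hi a b) (hlo : lo' ≤ lo) (hhi : hi ≤ hi') : Inner T lo' hi' a b := by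
  refine ReflTransGen.mono ?_ _ _ h
  rintro c c' ⟨h1, h2, h3⟩
  exact ⟨le_trans hlo h1, le_trans h2 hhi, h3⟩

theorem Inner.shift {T : Q → Q → ℤ → Prop} {lo hi : ℤ} {a b : Q × ℤ}
    (h : Inner T lo hi a b) (k : ℤ) :
    Inner T (lo + k) (hi + k) (a.1, a.2 + k) (b.1, b.2 + k) := by
  refine ReflTransGen.lift (fun c : Q × ℤ => (c.1, c.2 + k)) ?_ _ _ h
  rintro c c' ⟨h1, h2, h3⟩
  refine ⟨by simpa using h1, by simpa using h2, ?_⟩
  have : c'.2 + k - (c.2 + k) = c'.2 - c.2 := by ring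
  simpa [this] using h3

/-- First passage decomposition. -/
theorem Inner.split {T : Q → Q → ℤ → Prop} (hT : ∀ p q d, T p q d → d ≤ 1) {lo hi : ℤ}
    {a b : Q × ℤ} (h : Inner T lo hi a b) (j : ℤ) (h1 : a.2 ≤ j) (h2 : j ≤ b.2) :
    ∃ p, Inner T lo (j - 1) a (p, j) ∧ Inner T lo hi (p, j) b := by
  induction h using ReflTransGen.head_induction_on with
  | refl =>
    have : b.2 = j := le_antisymm h1 h2
    refine ⟨b.1, ?_, ?_⟩
    · rw [← this]; exact ReflTransGen.refl
    · rw [← this]; exact ReflTransGen.refl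
  | @head a c hac hcb ih =>
    by_cases hj : a.2 = j
    · refine ⟨a.1, ?_, ?_⟩
      · rw [← hj]; exact ReflTransGen.refl
      · rw [← hj]; exact ReflTransGen.head hac hcb
    · have hlt : a.2 < j := lt_of_le_of_ne h1 hj
      obtain ⟨g1, g2, g3⟩ := hac
      have hd := hT _ _ _ g3
      obtain ⟨p, hp1, hp2⟩ := ih (by omega)
      refine ⟨p, ReflTransGen.head ⟨g1, by omega, g3⟩ hp1, hp2⟩

/-- A chain of first passages. -/
theorem Inner.chain {T : Q → Q → ℤ → Prop} (hT : ∀ p q d, T p q d → d ≤ 1) {lo hi : ℤ}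
    {b : Q × ℤ} (k : ℕ) : ∀ (p : Q) (j : ℤ), Inner T lo hi (p, j) b → j + k ≤ b.2 →
    ∃ f : ℕ → Q, f 0 = p ∧
      (∀ t : ℕ, t < k → Inner T lo (j + t) (f t, j + t) (f (t + 1), j + t + 1)) ∧
      Inner T lo hi (f k, j + k) b := by
  induction k with
  | zero =>
    intro p j h _
    exact ⟨fun _ => p, rfl, fun t ht => absurd ht (Nat.not_lt_zero t), by simpa using h⟩
  | succ k ih =>
    intro p j h hj
    push_cast at hj
    obtain ⟨p', hp1, hp2⟩ := Inner.split hT h (j + 1) (by simp) (by omega)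
    obtain ⟨f', hf0, hf1, hf2⟩ := ih p' (j + 1) hp2 (by omega)
    refine ⟨fun t => Nat.casesOn t p f', rfl, ?_, ?_⟩
    · intro t ht
      cases t with
      | zero =>
        simp only [Nat.cast_zero, add_zero]
        have : j + 1 - 1 = j := by ring
        rw [this] at hp1
        rw [hf0]
        exact hp1
      | succ t =>
        have := hf1 t (by omega)
        push_cast
        have e1 : j + (↑t + 1) = j + 1 + ↑t := by ring
        rw [e1]
        exact this
    · push_cast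
      have e1 : j + (↑k + 1) = j + 1 + ↑k := by ring
      rw [e1]
      exact hf2

/-- Composition along a chain. -/
theorem Inner.chain_comp {T : Q → Q → ℤ → Prop} {lo : ℤ} {j : ℤ} {k : ℕ} {f : ℕ → Q}
    (hf : ∀ t : ℕ, t < k → Inner T lo (j + t) (f t, j + t) (f (t + 1), j + t + 1))
    (t1 : ℕ) (n : ℕ) (h : t1 + n ≤ k) :
    Inner T lo (j + t1 + n - 1) (f t1, j + t1) (f (t1 + n), j + t1 + n) := by
  induction n with
  | zero => simpa using Inner.refl' T lo _ _
  | succ n ih =>
    have h1 := ih (by omega)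
    have h2 := hf (t1 + n) (by omega)
    push_cast at h2 ⊢
    have e1 : j + (↑t1 + ↑n) = j + ↑t1 + ↑n := by ring
    rw [e1] at h2
    have e2 : j + ↑t1 + (↑n + 1) = j + ↑t1 + ↑n + 1 := by ring
    rw [e2]
    refine Inner.trans' (h1.mono le_rfl (by omega)) ?_
    exact h2.mono le_rfl (by omega)

/-- Iterating a loop that advances by `l`. -/
theorem Inner.loop {T : Q → Q → ℤ → Prop} {lo : ℤ} {p : Q} {j l : ℤ} (hl : 0 ≤ l)
    (h : Inner T lo (j + l - 1) (p, j) (p, j + l)) (c : ℕ) :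
    Inner T lo (j + c * l - 1) (p, j) (p, j + c * l) := by
  induction c with
  | zero => simpa using Inner.refl' T lo _ _
  | succ c ih =>
    have h2 := h.shift (c * l)
    simp only at h2
    push_cast
    have hcl : 0 ≤ (c : ℤ) * l := by positivity
    have e1 : j + l + ↑c * l = j + (↑c + 1) * l := by ring
    rw [e1] at h2
    refine Inner.trans' (ih.mono le_rfl (by nlinarith)) (h2.mono (by omega) (by nlinarith))

/-- Pumping of left-to-right traversals. -/
theorem Inner.pump [Fintype Q] {T : Q → Q → ℤ → Prop} (hT : ∀ p q d, T p q d → d ≤ 1)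
    {m : ℕ} (hm : Fintype.card Q ≤ m) {q q' : Q}
    (h : Inner T 1 m (q, 1) (q', (m : ℤ) + 1)) :
    Inner T 1 ((m : ℤ) + (Fintype.card Q).factorial) (q, 1)
      (q', (m : ℤ) + 1 + (Fintype.card Q).factorial) := by
  set s := Fintype.card Q with hs
  obtain ⟨f, hf0, hf1, hf2⟩ := Inner.chain hT m q 1 h (by simp; omega)
  -- pigeonhole on `f` restricted to `0..s`
  obtain ⟨a, b, hab, hfab⟩ : ∃ a b : Fin (s + 1), a ≠ b ∧ f a = f b := by
    apply Fintype.exists_ne_map_eq_of_card_lt (fun a : Fin (s + 1) => f a)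
    simp [hs]
  wlog hlt : a.val < b.val generalizing a b
  · exact this b a hab.symm hfab.symm (by
      have : a.val ≠ b.val := fun h => hab (Fin.ext h)
      omega)
  obtain ⟨n, hn⟩ : ∃ n, b.val = a.val + n := ⟨b.val - a.val, by omega⟩
  have hn0 : 0 < n := by omega
  have hns : n ≤ s := by have := b.isLt; omega
  have hbm : a.val + n ≤ m := by have := b.isLt; omega
  obtain ⟨c, hc⟩ : n ∣ s.factorial := Nat.dvd_factorial hn0 hns
  -- three pieces
  have p1 := Inner.chain_comp hf1 0 a.val (by omega)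
  have p2 := Inner.chain_comp hf1 a.val n hbm
  have p3 := Inner.chain_comp hf1 (a.val + n) (m - (a.val + n)) (by omega)
  rw [← hn, ← hfab] at p2
  have p2' : Inner T 1 ((1 + (a.val : ℤ)) + (n : ℤ) - 1) (f a.val, 1 + (a.val : ℤ))
      (f a.val, (1 + (a.val : ℤ)) + (n : ℤ)) := p2
  have p2l := Inner.loop (by positivity) p2' (c + 1)
  have p3' := (Inner.trans' (p3.mono le_rfl (by
    have : ((m - (a.val + n) : ℕ) : ℤ) = (m : ℤ) - (a.val + n) := by
      rw [Nat.cast_sub hbm]; push_cast; ring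
    rw [this]; push_cast; omega)) (by
      have e : a.val + n + (m - (a.val + n)) = m := by omega
      have e2 : (1 : ℤ) + ((a.val + n : ℕ) : ℤ) + ((m - (a.val + n) : ℕ) : ℤ) = 1 + m := by
        have : ((m - (a.val + n) : ℕ) : ℤ) = (m : ℤ) - (a.val + n) := by
          rw [Nat.cast_sub hbm]; push_cast; ring
        rw [this]; push_cast; ring
      rw [e, e2]
      exact hf2) : Inner T 1 m (f (a.val + n), 1 + ((a.val + n : ℕ) : ℤ)) (q', (m : ℤ) + 1))
  have p3s := p3'.shift (s.factorial : ℤ)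
  simp only at p3s
  have hD : ((s.factorial : ℕ) : ℤ) = (n : ℤ) * c := by rw [hc]; push_cast; ring
  have hfa : f (a.val + n) = f a.val := by rw [← hn]; exact hfab.symm
  rw [hfa] at p3s
  have e0 : f 0 = q := hf0
  simp only [Nat.cast_zero, add_zero, zero_add] at p1
  rw [e0] at p1
  have hc0 : (0 : ℤ) ≤ (n : ℤ) * c := by positivity
  refine Inner.trans' (p1.mono le_rfl ?_) (Inner.trans' (p2l.mono le_rfl ?_) ?_)
  · have : (a.val : ℤ) + n ≤ m := by exact_mod_cast hbm
    rw [hD]; omega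
  · have : (a.val : ℤ) + n ≤ m := by exact_mod_cast hbm
    rw [hD]; push_cast; nlinarith
  · have e3 : (1 : ℤ) + (a.val : ℤ) + ((c + 1 : ℕ) : ℤ) * (n : ℤ)
        = 1 + ((a.val + n : ℕ) : ℤ) + (s.factorial : ℤ) := by
      rw [hD]; push_cast; ring
    rw [e3]
    exact p3s.mono (by rw [hD]; omega) le_rfl

end Vale.Agent.Lib.P343
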