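import Vale.Agent.Lib.P343.TwoNFA
import Vale.Agent.Lib.P343.Inner

/-!
Pumping lemma for two-way nondeterministic automata over a one-letter alphabet:
an `s`-state automaton accepting `a^m` with `m ≥ s` also accepts `a^(m+s!)`.
-/

namespace Vale.Agent.Lib.P343

open Relation

variable {Q : Type}

theorem Dir.toInt_le (e : Dir) : e.toInt ≤ 1 := by cases e <;> simp [Dir.toInt]

theorem Dir.neg_le_toInt (e : Dir) : -1 ≤ e.toInt := by cases e <;> simp [Dir.toInt]

/-- The step relation of a unary automaton on the letter. -/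
def aRel (B : TwoNFA Unit Q) (p q : Q) (d : ℤ) : Prop :=
  ∃ e : Dir, B.δ p (TapeSym.sym ()) q e ∧ d = e.toInt

/-- Mirror image of a step relation. -/
def mirrorRel (T : Q → Q → ℤ → Prop) (p q : Q) (d : ℤ) : Prop := T p q (-d)

theorem mirrorRel_mirrorRel (T : Q → Q → ℤ → Prop) : mirrorRel (mirrorRel T) = T := by
  funext p q d
  simp [mirrorRel]

theorem Inner.mirror {T : Q → Q → ℤ → Prop} {lo hi : ℤ} {a b : Q × ℤ} (h : Inner T lo hi a b) :
    Inner (mirrorRel T) (-hi) (-lo) (a.1, -a.2) (b.1, -b.2) := by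
  refine ReflTransGen.lift (fun c : Q × ℤ => (c.1, -c.2)) ?_ _ _ h
  rintro c c' ⟨h1, h2, h3⟩
  refine ⟨by simpa using h2, by simpa using h1, ?_⟩
  have : -(-c'.2 - -c.2) = c'.2 - c.2 := by ring
  show T c.1 c'.1 (-(-c'.2 - -c.2))
  rw [this]
  exact h3

/-- Pumping of right-to-left traversals. -/
theorem Inner.pump_left [Fintype Q] {T : Q → Q → ℤ → Prop} (hT : ∀ p q d, T p q d → -1 ≤ d)
    {m : ℕ} (hm : Fintype.card Q ≤ m) {q q' : Q}
    (h : Inner T 1 m (q, (m : ℤ)) (q', 0)) :
    Inner T 1 ((m : ℤ) + (Fintype.card Q).factorial) (q, (m : ℤ) + (Fintype.card Q).factorial)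
      (q', 0) := by
  have h1 := (h.mirror).shift ((m : ℤ) + 1)
  simp only at h1
  have e1 : -(m : ℤ) + ((m : ℤ) + 1) = 1 := by ring
  have e2 : (-1 : ℤ) + ((m : ℤ) + 1) = m := by ring
  have e3 : (-0 : ℤ) + ((m : ℤ) + 1) = (m : ℤ) + 1 := by ring
  rw [e1, e2, e3] at h1
  have hT' : ∀ p q d, mirrorRel T p q d → d ≤ 1 := by
    intro p q d hd
    have := hT p q (-d) hd
    omega
  have h2 := Inner.pump hT' hm h1
  have h3 := (h2.mirror).shift ((m : ℤ) + (Fintype.card Q).factorial + 1)
  simp only at h3
  rw [mirrorRel_mirrorRel] at h3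
  set D : ℤ := ((Fintype.card Q).factorial : ℤ)
  have f1 : -((m : ℤ) + D) + ((m : ℤ) + D + 1) = 1 := by ring
  have f2 : (-1 : ℤ) + ((m : ℤ) + D + 1) = (m : ℤ) + D := by ring
  have f3 : -((m : ℤ) + 1 + D) + ((m : ℤ) + D + 1) = 0 := by ring
  rw [f1, f2, f3] at h3
  exact h3

theorem tapeAt_zero {α : Type} (w : List α) : tapeAt w 0 = TapeSym.lend := by
  simp [tapeAt]

theorem tapeAt_replicate_inner (m : ℕ) (i : ℤ) (h1 : 1 ≤ i) (h2 : i ≤ m) :
    tapeAt (List.replicate m ()) i = TapeSym.sym () := by
  have h0 : ¬ i ≤ 0 := by omega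
  have h3 : (i - 1).toNat < m := by omega
  have h4 : (List.replicate m ())[(i - 1).toNat]? = some () := by
    rw [List.getElem?_replicate, if_pos h3]
  simp only [tapeAt, h0, if_false, h4]

theorem tapeAt_replicate_end (m : ℕ) :
    tapeAt (List.replicate m ()) ((m : ℤ) + 1) = TapeSym.rend := by
  have h0 : ¬ ((m : ℤ) + 1 ≤ 0) := by omega
  simp [tapeAt, h0]

theorem aRel_le (B : TwoNFA Unit Q) : ∀ p q d, aRel B p q d → d ≤ 1 := by
  rintro p q d ⟨e, _, rfl⟩
  exact Dir.toInt_le e

theorem le_aRel (B : TwoNFA Unit Q) : ∀ p q d, aRel B p q d → -1 ≤ d := by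
  rintro p q d ⟨e, _, rfl⟩
  exact Dir.neg_le_toInt e

/-- Inner paths are computations. -/
theorem inner_to_steps (B : TwoNFA Unit Q) (M : ℕ) {a b : Q × ℤ}
    (h : Inner (aRel B) 1 M a b) : ReflTransGen (B.Step (List.replicate M ())) a b := by
  refine ReflTransGen.mono ?_ _ _ h
  rintro c c' ⟨h1, h2, e, he, hd⟩
  have g1 := Dir.toInt_le e
  have g2 := Dir.neg_le_toInt e
  refine ⟨e, ?_, by omega, by omega, ?_⟩
  · rw [tapeAt_replicate_inner M c.2 h1 h2]; exact he
  · simp only [List.length_replicate]; omega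

/-- The pumping lemma. -/
theorem pump_accepts [Fintype Q] (B : TwoNFA Unit Q) {m : ℕ} (hm : Fintype.card Q ≤ m)
    (h : B.Accepts (List.replicate m ())) :
    B.Accepts (List.replicate (m + (Fintype.card Q).factorial) ()) := by
  classical
  set D : ℕ := (Fintype.card Q).factorial with hD
  set M : ℕ := m + D with hM
  have hMz : (M : ℤ) = (m : ℤ) + (D : ℤ) := by rw [hM]; push_cast; ring
  have hm1 : 1 ≤ m := by
    have : 0 < Fintype.card Q := Fintype.card_pos_iff.mpr ⟨B.start⟩
    omega
  let RM : Q × ℤ → Prop := fun c => ReflTransGen (B.Step (List.replicate M ())) (B.start, 0) c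
  let Inv : Q × ℤ → Prop := fun c =>
    (c.2 = 0 ∧ RM (c.1, 0)) ∨ (c.2 = (m : ℤ) + 1 ∧ RM (c.1, (M : ℤ) + 1)) ∨
    (1 ≤ c.2 ∧ c.2 ≤ m ∧ ∃ p, (RM (p, 1) ∧ Inner (aRel B) 1 m (p, 1) c) ∨
      (RM (p, (M : ℤ)) ∧ Inner (aRel B) 1 m (p, (m : ℤ)) c))
  obtain ⟨c, hc, hacc⟩ := h
  have key : Inv c := by
    clear hacc
    induction hc with
    | refl => exact Or.inl ⟨rfl, ReflTransGen.refl⟩
    | @tail c c' _ hstep ih =>
      obtain ⟨e, he, hpos, hlo, hhi⟩ := hstep
      simp only [List.length_replicate] at hhi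
      have g1 := Dir.toInt_le e
      have g2 := Dir.neg_le_toInt e
      rcases ih with ⟨h0, hr⟩ | ⟨h0, hr⟩ | ⟨h1, h2, p, hp⟩
      · -- on the left endmarker
        rw [h0, tapeAt_zero] at he
        have hstepM : B.Step (List.replicate M ()) (c.1, 0) (c'.1, c'.2) := by
          refine ⟨e, ?_, by simp only; omega, hlo, ?_⟩
          · simp only [tapeAt_zero]; exact he
          · simp only [List.length_replicate]; omega
        have hr' : RM (c'.1, c'.2) := ReflTransGen.tail hr hstepM
        by_cases hc0 : c'.2 = 0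
        · left; exact ⟨hc0, by rw [← hc0]; exact hr'⟩
        · have hc1 : c'.2 = 1 := by omega
          right; right
          refine ⟨by omega, by omega, c'.1, Or.inl ⟨by rw [← hc1]; exact hr', ?_⟩⟩
          have : c' = (c'.1, 1) := by rw [← hc1]
          rw [← this]
          exact Inner.refl' _ _ _ _
      · -- on the right endmarker
        rw [h0, tapeAt_replicate_end] at he
        have hstepM : B.Step (List.replicate M ()) (c.1, (M : ℤ) + 1) (c'.1, c'.2 + D) := by
          refine ⟨e, ?_, by simp only; omega, by simp only; omega, ?_⟩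
          · simp only [tapeAt_replicate_end]; exact he
          · simp only [List.length_replicate]; omega
        have hr' : RM (c'.1, c'.2 + D) := ReflTransGen.tail hr hstepM
        by_cases hc0 : c'.2 = (m : ℤ) + 1
        · right; left
          refine ⟨hc0, ?_⟩
          have : (M : ℤ) + 1 = c'.2 + D := by omega
          rw [this]; exact hr'
        · have hc1 : c'.2 = m := by omega
          right; right
          refine ⟨by omega, by omega, c'.1, Or.inr ⟨?_, ?_⟩⟩
          · have : (M : ℤ) = c'.2 + D := by omega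
            rw [this]; exact hr'
          · have : c' = (c'.1, (m : ℤ)) := by rw [← hc1]
            rw [← this]
            exact Inner.refl' _ _ _ _
      · -- on a letter
        rw [tapeAt_replicate_inner m c.2 h1 h2] at he
        have hist : IStep (aRel B) 1 m c c' := ⟨h1, h2, e, he, by omega⟩
        by_cases hc0 : c'.2 = 0
        · left
          refine ⟨hc0, ?_⟩
          have hc' : c' = (c'.1, 0) := by rw [← hc0]
          rcases hp with ⟨hr, hin⟩ | ⟨hr, hin⟩
          · have h3 : Inner (aRel B) 1 m (p, 1) (c'.1, 0) := by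
              rw [← hc']; exact ReflTransGen.tail hin hist
            exact ReflTransGen.trans hr (inner_to_steps B M (h3.mono le_rfl (by omega)))
          · have h3 : Inner (aRel B) 1 m (p, (m : ℤ)) (c'.1, 0) := by
              rw [← hc']; exact ReflTransGen.tail hin hist
            have h4 := Inner.pump_left (le_aRel B) hm h3
            rw [← hD, ← hMz] at h4
            exact ReflTransGen.trans hr (inner_to_steps B M h4)
        · by_cases hc1 : c'.2 = (m : ℤ) + 1
          · right; left
            refine ⟨hc1, ?_⟩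
            have hc' : c' = (c'.1, (m : ℤ) + 1) := by rw [← hc1]
            rcases hp with ⟨hr, hin⟩ | ⟨hr, hin⟩
            · have h3 : Inner (aRel B) 1 m (p, 1) (c'.1, (m : ℤ) + 1) := by
                rw [← hc']; exact ReflTransGen.tail hin hist
              have h4 := Inner.pump (aRel_le B) hm h3
              rw [← hD, ← hMz] at h4
              have e5 : (m : ℤ) + 1 + (D : ℤ) = (M : ℤ) + 1 := by omega
              rw [e5] at h4
              exact ReflTransGen.trans hr (inner_to_steps B M h4)
            · have h3 : Inner (aRel B) 1 m (p, (m : ℤ)) (c'.1, (m : ℤ) + 1) := by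
                rw [← hc']; exact ReflTransGen.tail hin hist
              have h4 := h3.shift (D : ℤ)
              simp only at h4
              rw [← hMz] at h4
              have e5 : (m : ℤ) + 1 + (D : ℤ) = (M : ℤ) + 1 := by omega
              rw [e5] at h4
              exact ReflTransGen.trans hr (inner_to_steps B M (h4.mono (by omega) le_rfl))
          · right; right
            refine ⟨by omega, by omega, p, ?_⟩
            rcases hp with ⟨hr, hin⟩ | ⟨hr, hin⟩
            · exact Or.inl ⟨hr, ReflTransGen.tail hin hist⟩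
            · exact Or.inr ⟨hr, ReflTransGen.tail hin hist⟩
  rcases key with ⟨_, hr⟩ | ⟨_, hr⟩ | ⟨_, _, p, hp⟩
  · exact ⟨_, hr, hacc⟩
  · exact ⟨_, hr, hacc⟩
  · rcases hp with ⟨hr, hin⟩ | ⟨hr, hin⟩
    · exact ⟨c, ReflTransGen.trans hr (inner_to_steps B M (hin.mono le_rfl (by omega))), hacc⟩
    · have h4 := hin.shift (D : ℤ)
      simp only at h4
      rw [← hMz] at h4
      exact ⟨_, ReflTransGen.trans hr (inner_to_steps B M (h4.mono (by omega) le_rfl)), hacc⟩

end Vale.Agent.Lib.P343
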