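import Vale.Agent.Lib.P343.TwoNFA
import Vale.Agent.Lib.P343.Pump

/-!
The `(n+2)`-state one-way nondeterministic automaton for `{ a^m : m = x n + y (n+1) }`.
-/

namespace Vale.Agent.Lib.P343

open Relation

/-- States `0..n-1` form a cycle of length `n`, the state `n` is a detour making a cycle of length
`n+1`, and `n+1` is the accepting state, entered from `0` on the right endmarker. -/
def semiNFA (n : ℕ) : TwoNFA Unit (Fin (n + 2)) where
  start := 0
  acc := fun q => q.val = n + 1
  δ := fun q s q' d =>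
    match s with
    | TapeSym.lend => q.val = 0 ∧ q'.val = 0 ∧ d = Dir.right
    | TapeSym.sym _ => d = Dir.right ∧
        ((q.val + 1 < n ∧ q'.val = q.val + 1) ∨ (q.val + 1 = n ∧ (q'.val = 0 ∨ q'.val = n)) ∨
          (q.val = n ∧ q'.val = 0))
    | TapeSym.rend => q.val = 0 ∧ q'.val = n + 1 ∧ d = Dir.stay

theorem semiNFA_oneWay (n : ℕ) : (semiNFA n).OneWay := by
  intro q s q' h
  cases s with
  | lend => simp [semiNFA] at h
  | rend => simp [semiNFA] at h
  | sym a => simp [semiNFA] at h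

theorem semiNFA_sound (n m : ℕ) (h : (semiNFA n).Accepts (List.replicate m ())) :
    ∃ x y : ℕ, m = x * n + y * (n + 1) := by
  let Inv : Fin (n + 2) × ℤ → Prop := fun c =>
    (c.2 = 0 ∧ c.1.val = 0) ∨
    (1 ≤ c.2 ∧ c.2 ≤ (m : ℤ) + 1 ∧ c.1.val ≤ n ∧
      ∃ x y : ℕ, c.2 - 1 = (x : ℤ) * n + (y : ℤ) * (n + 1) + c.1.val) ∨
    (c.1.val = n + 1 ∧ ∃ x y : ℕ, m = x * n + y * (n + 1))
  obtain ⟨c, hc, hacc⟩ := h
  have key : Inv c := by
    clear hacc
    induction hc with
    | refl => exact Or.inl ⟨rfl, rfl⟩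
    | @tail c c' _ hstep ih =>
      obtain ⟨e, he, hpos, hlo, hhi⟩ := hstep
      simp only [List.length_replicate] at hhi
      rcases ih with ⟨h0, hq⟩ | ⟨h1, h2, hq, x, y, hxy⟩ | ⟨hq, _⟩
      · rw [h0, tapeAt_zero] at he
        obtain ⟨_, hq', rfl⟩ := he
        right; left
        simp only [Dir.toInt] at hpos
        refine ⟨by omega, hhi, by omega, 0, 0, ?_⟩
        rw [hq']; simp; omega
      · by_cases hm : c.2 ≤ m
        · rw [tapeAt_replicate_inner m c.2 h1 hm] at he
          obtain ⟨rfl, hcase⟩ := he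
          simp only [Dir.toInt] at hpos
          right; left
          rcases hcase with ⟨g1, g2⟩ | ⟨g1, g2 | g2⟩ | ⟨g1, g2⟩
          · refine ⟨by omega, hhi, by omega, x, y, ?_⟩
            rw [g2]; push_cast; omega
          · refine ⟨by omega, hhi, by omega, x + 1, y, ?_⟩
            rw [g2]; push_cast
            have : (c.1.val : ℤ) + 1 = n := by exact_mod_cast g1
            linarith
          · refine ⟨by omega, hhi, by omega, x, y, ?_⟩
            rw [g2]
            have : (c.1.val : ℤ) + 1 = n := by exact_mod_cast g1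
            linarith
          · refine ⟨by omega, hhi, by omega, x, y + 1, ?_⟩
            rw [g2]; push_cast
            have : (c.1.val : ℤ) = n := by exact_mod_cast g1
            linarith
        · have hce : c.2 = (m : ℤ) + 1 := by omega
          rw [hce, tapeAt_replicate_end] at he
          obtain ⟨g0, g1, rfl⟩ := he
          right; right
          refine ⟨g1, x, y, ?_⟩
          rw [hce, g0] at hxy
          simp only [Nat.cast_zero] at hxy
          have : (m : ℤ) = ((x * n + y * (n + 1) : ℕ) : ℤ) := by push_cast; linarith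
          exact_mod_cast this
      · exfalso
        rcases htape : tapeAt (List.replicate m ()) c.2 with _ | _ | a
        · rw [htape] at he
          obtain ⟨g0, _, _⟩ := he
          omega
        · rw [htape] at he
          obtain ⟨g0, _, _⟩ := he
          omega
        · rw [htape] at he
          obtain ⟨_, hcase⟩ := he
          rcases hcase with ⟨g1, g2⟩ | ⟨g1, g2⟩ | ⟨g1, g2⟩ <;> omega
  have hacc' : c.1.val = n + 1 := hacc
  rcases key with ⟨_, hq⟩ | ⟨_, _, hq, _⟩ | ⟨_, hxy⟩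
  · omega
  · omega
  · exact hxy

section complete

variable (n m : ℕ)

theorem semiNFA_letter_step (q q' : Fin (n + 2)) (i : ℤ) (h1 : 1 ≤ i) (h2 : i ≤ m)
    (hδ : (q.val + 1 < n ∧ q'.val = q.val + 1) ∨ (q.val + 1 = n ∧ (q'.val = 0 ∨ q'.val = n)) ∨
          (q.val = n ∧ q'.val = 0)) :
    (semiNFA n).Step (List.replicate m ()) (q, i) (q', i + 1) := by
  refine ⟨Dir.right, ?_, by simp [Dir.toInt], by simp only; omega, ?_⟩
  · simp only [tapeAt_replicate_inner m i h1 h2]
    exact ⟨rfl, hδ⟩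
  · simp only [List.length_replicate]; omega

theorem semiNFA_adv (i : ℤ) (h1 : 1 ≤ i) (c0 : Fin (n + 2) × ℤ)
    (hr : ReflTransGen ((semiNFA n).Step (List.replicate m ())) c0 (0, i)) (k : ℕ) :
    ∀ (hk : k < n), i + k ≤ (m : ℤ) + 1 →
    ReflTransGen ((semiNFA n).Step (List.replicate m ())) c0 (⟨k, by omega⟩, i + k) := by
  induction k with
  | zero =>
    intro _ _
    simpa using hr
  | succ k ih =>
    intro hk hik
    push_cast at hik
    have h := ih (by omega) (by omega)
    refine ReflTransGen.tail h ?_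
    have := semiNFA_letter_step n m ⟨k, by omega⟩ ⟨k + 1, by omega⟩ (i + k) (by omega) (by omega)
      (Or.inl ⟨by simpa using hk, rfl⟩)
    push_cast
    have e : i + ((k : ℤ) + 1) = i + k + 1 := by ring
    rw [e]
    exact this

theorem semiNFA_cycle (hn : 1 ≤ n) (i : ℤ) (h1 : 1 ≤ i) (h2 : i + n ≤ (m : ℤ) + 1)
    (c0 : Fin (n + 2) × ℤ)
    (hr : ReflTransGen ((semiNFA n).Step (List.replicate m ())) c0 (0, i)) :
    ReflTransGen ((semiNFA n).Step (List.replicate m ())) c0 (0, i + n) := by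
  have h := semiNFA_adv n m i h1 c0 hr (n - 1) (by omega) (by omega)
  refine ReflTransGen.tail h ?_
  have := semiNFA_letter_step n m ⟨n - 1, by omega⟩ 0 (i + ((n - 1 : ℕ) : ℤ)) (by omega) (by omega)
    (Or.inr (Or.inl ⟨by simp only; omega, Or.inl rfl⟩))
  have e : i + ((n - 1 : ℕ) : ℤ) + 1 = i + n := by omega
  rw [e] at this
  exact this

theorem semiNFA_cycle' (hn : 1 ≤ n) (i : ℤ) (h1 : 1 ≤ i) (h2 : i + n + 1 ≤ (m : ℤ) + 1)
    (c0 : Fin (n + 2) × ℤ)
    (hr : ReflTransGen ((semiNFA n).Step (List.replicate m ())) c0 (0, i)) :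
    ReflTransGen ((semiNFA n).Step (List.replicate m ())) c0 (0, i + n + 1) := by
  have h := semiNFA_adv n m i h1 c0 hr (n - 1) (by omega) (by omega)
  have s1 := semiNFA_letter_step n m ⟨n - 1, by omega⟩ ⟨n, by omega⟩ (i + ((n - 1 : ℕ) : ℤ))
    (by omega) (by omega) (Or.inr (Or.inl ⟨by simp only; omega, Or.inr rfl⟩))
  have e : i + ((n - 1 : ℕ) : ℤ) + 1 = i + n := by omega
  rw [e] at s1
  have s2 := semiNFA_letter_step n m ⟨n, by omega⟩ 0 (i + n) (by omega) (by omega)
    (Or.inr (Or.inr ⟨rfl, rfl⟩))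
  exact ReflTransGen.tail (ReflTransGen.tail h s1) s2

theorem semiNFA_reach (hn : 1 ≤ n) (x y : ℕ) (h : x * n + y * (n + 1) ≤ m) :
    ReflTransGen ((semiNFA n).Step (List.replicate m ())) ((semiNFA n).start, 0)
      (0, 1 + (x : ℤ) * n + (y : ℤ) * (n + 1)) := by
  induction x with
  | zero =>
    induction y with
    | zero =>
      refine ReflTransGen.single ⟨Dir.right, ?_, by simp [Dir.toInt], by simp, ?_⟩
      · simp only [tapeAt_zero]
        exact ⟨rfl, rfl, rfl⟩
      · simp only [List.length_replicate]; push_cast; omega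
    | succ y ih =>
      have hz : ((0 * n + (y + 1) * (n + 1) : ℕ) : ℤ) ≤ m := by exact_mod_cast h
      push_cast at hz
      have h' := ih (by nlinarith)
      have hy : (0 : ℤ) ≤ (y : ℤ) * (n + 1) := by positivity
      have := semiNFA_cycle' n m hn _ (by push_cast; nlinarith) (by push_cast; nlinarith) _ h'
      push_cast at this ⊢
      have e : 1 + 0 * (n : ℤ) + (y : ℤ) * (n + 1) + n + 1 = 1 + 0 * (n : ℤ) + ((y : ℤ) + 1) * (n + 1) := by
        ring
      rw [← e]
      exact this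
  | succ x ih =>
    have hz : (((x + 1) * n + y * (n + 1) : ℕ) : ℤ) ≤ m := by exact_mod_cast h
    push_cast at hz
    have h' := ih (by nlinarith)
    have hy : (0 : ℤ) ≤ (y : ℤ) * (n + 1) := by positivity
    have hx : (0 : ℤ) ≤ (x : ℤ) * n := by positivity
    have := semiNFA_cycle n m hn _ (by nlinarith) (by nlinarith) _ h'
    push_cast
    have e : 1 + (x : ℤ) * n + (y : ℤ) * (n + 1) + n = 1 + ((x : ℤ) + 1) * n + (y : ℤ) * (n + 1) := by
      ring
    rw [← e]
    exact this

theorem semiNFA_complete (hn : 1 ≤ n) (x y : ℕ) (h : m = x * n + y * (n + 1)) :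
    (semiNFA n).Accepts (List.replicate m ()) := by
  have hr := semiNFA_reach n m hn x y (le_of_eq h.symm)
  have hz : (m : ℤ) = (x : ℤ) * n + (y : ℤ) * (n + 1) := by rw [h]; push_cast; ring
  have e : 1 + (x : ℤ) * n + (y : ℤ) * (n + 1) = (m : ℤ) + 1 := by rw [hz]; ring
  rw [e] at hr
  refine ⟨(⟨n + 1, by omega⟩, (m : ℤ) + 1), ReflTransGen.tail hr ?_, rfl⟩
  refine ⟨Dir.stay, ?_, by simp [Dir.toInt], by simp only; omega, ?_⟩
  · simp only [tapeAt_replicate_end]
    exact ⟨rfl, rfl, rfl⟩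
  · simp only [List.length_replicate]; omega

end complete

theorem semigroup_rep (n m : ℕ) (hn : 1 ≤ n) (hm : n * n ≤ m + n) :
    ∃ x y : ℕ, m = x * n + y * (n + 1) := by
  have h1 : m = n * (m / n) + m % n := (Nat.div_add_mod m n).symm
  have h2 : m % n < n := Nat.mod_lt _ (by omega)
  have h3 : n - 1 ≤ m / n := by
    rw [Nat.le_div_iff_mul_le (by omega)]
    have : (n - 1) * n + n = n * n := by
      obtain ⟨k, rfl⟩ : ∃ k, n = k + 1 := ⟨n - 1, by omega⟩
      simp; ring
    omega
  refine ⟨m / n - m % n, m % n, ?_⟩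
  obtain ⟨t, ht⟩ : ∃ t, m / n = m % n + t := ⟨m / n - m % n, by omega⟩
  rw [ht] at h1 ⊢
  simp only [Nat.add_sub_cancel_left]
  nlinarith

theorem semigroup_not_rep (n N : ℕ) (hn : 2 ≤ n) (hN : N + n + 1 = n * n) :
    ¬ ∃ x y : ℕ, N = x * n + y * (n + 1) := by
  rintro ⟨x, y, h⟩
  -- N = (x+y) n + y and N = (n-2) n + (n-1)
  obtain ⟨k, rfl⟩ : ∃ k, n = k + 2 := ⟨n - 2, by omega⟩
  have h1 : (x + y) * (k + 2) + y + (k + 2) + 1 = (k + 2) * (k + 2) := by rw [← hN, h]; ring
  -- (x + y + 1) (k+2) + (y + 1) = (k+2)^2, so (k+2) divides y+1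
  have hdvd : (k + 2) ∣ (y + 1) := by
    have h2 : (k + 2) ∣ (x + y + 1) * (k + 2) + (y + 1) := by
      have : (x + y + 1) * (k + 2) + (y + 1) = (k + 2) * (k + 2) := by rw [← h1]; ring
      rw [this]; exact Dvd.intro _ rfl
    exact (Nat.dvd_add_right (Dvd.intro_left _ rfl)).mp h2
  have hy : k + 2 ≤ y + 1 := Nat.le_of_dvd (by omega) hdvd
  nlinarith

end Vale.Agent.Lib.P343
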