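import Mathlib

/-!
Two-way nondeterministic finite automata with endmarkers, in the conventions of problem P343.
-/

namespace Vale.Agent.Lib.P343

/-- Tape symbols: the two endmarkers and the input letters. -/
inductive TapeSym (α : Type) : Type
  | lend : TapeSym α
  | rend : TapeSym α
  | sym : α → TapeSym α

/-- Head moves. -/
inductive Dir : Type
  | left : Dir
  | stay : Dir
  | right : Dir

/-- The displacement of the head caused by a move. -/
def Dir.toInt : Dir → ℤ
  | Dir.left => -1
  | Dir.stay => 0
  | Dir.right => 1

/-- A two-way nondeterministic finite automaton over the alphabet `α` with state set `Q`: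
one initial state, a set of accepting states, and a transition relation
`δ q s q' d` (in state `q` scanning `s` the automaton may enter `q'` and move the head by `d`). -/
structure TwoNFA (α Q : Type) where
  start : Q
  acc : Q → Prop
  δ : Q → TapeSym α → Q → Dir → Prop

/-- The content of cell `i` of the tape `⊢ w ⊣`: cell `0` holds `⊢`, cells `1..|w|` hold the letters
of `w`, cell `|w|+1` holds `⊣`. -/
def tapeAt {α : Type} (w : List α) (i : ℤ) : TapeSym α :=
  if i ≤ 0 then TapeSym.lend
  else match w[(i - 1).toNat]? with
    | some a => TapeSym.sym a
    | none => TapeSym.rend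

namespace TwoNFA

variable {α Q : Type}

/-- One step on input `w` between configurations (state, head position). The head never leaves the
cells `0..|w|+1`; a transition that would do so is not applicable. -/
def Step (A : TwoNFA α Q) (w : List α) (c c' : Q × ℤ) : Prop :=
  ∃ d : Dir, A.δ c.1 (tapeAt w c.2) c'.1 d ∧ c'.2 = c.2 + d.toInt ∧ 0 ≤ c'.2 ∧ c'.2 ≤ w.length + 1

/-- `w` is accepted if some finite computation from the initial state on `⊢` reaches an accepting
state. -/
def Accepts (A : TwoNFA α Q) (w : List α) : Prop :=
  ∃ c : Q × ℤ, Relation.ReflTransGen (A.Step w) (A.start, 0) c ∧ A.acc c.1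

/-- One-way automata never move the head to the left. -/
def OneWay (A : TwoNFA α Q) : Prop :=
  ∀ q s q', ¬ A.δ q s q' Dir.left

end TwoNFA

end Vale.Agent.Lib.P343
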